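import Vale.Agent.P181.SZ.Defs

set_option autoImplicit false

/-!
# P181, SZ, T0: transport of `PK` along a map of column sets
-/

open MvPolynomial

namespace Vale.Agent.P181.SZT0

open Vale.Agent.P181.T4 (HW rowOp rowOp_apply mem_HW)
open Vale.Agent.P181.SZ

/-- Membership in `PK`. -/
lemma mem_PK {m : ℕ} {σ : Type} [Fintype σ] {d : σ → ℕ} {mu : Fin m → ℕ}
    {f : MvPolynomial (Fin m × σ) ℂ} :
    f ∈ PK m σ d mu ↔ f ∈ HW m σ mu ∧ (∀ v, coeff v f ≠ 0 → ∀ j, ∑ i, v (i, j) = d j) ∧
      ∀ e : Equiv.Perm σ, (∀ j, d (e j) = d j) →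
        rename (fun p : Fin m × σ => (p.1, e p.2)) f = f := Iff.rfl

/-- Two finite families of numbers with the same multiset of values differ by a bijection. -/
lemma exists_equiv {τ τ' : Type} [Fintype τ] [Fintype τ'] (g : τ → ℕ) (g' : τ' → ℕ)
    (h : Finset.univ.val.map g = Finset.univ.val.map g') :
    ∃ e : τ ≃ τ', ∀ x, g' (e x) = g x := by
  classical
  have hc : ∀ n, Nonempty ({x // g x = n} ≃ {x // g' x = n}) := by
    intro n
    refine ⟨Fintype.equivOfCardEq ?_⟩
    rw [Fintype.card_subtype, Fintype.card_subtype]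
    have h1 := congrArg (Multiset.count n) h
    rw [Multiset.count_map, Multiset.count_map] at h1
    have h2 : (Finset.univ.filter fun x => g x = n).card
        = Multiset.card (Multiset.filter (fun a => n = g a) Finset.univ.val) := by
      rw [Finset.card_def, Finset.filter_val]
      congr 2
      funext a
      exact propext eq_comm
    have h3 : (Finset.univ.filter fun x => g' x = n).card
        = Multiset.card (Multiset.filter (fun a => n = g' a) Finset.univ.val) := by
      rw [Finset.card_def, Finset.filter_val]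
      congr 2
      funext a
      exact propext eq_comm
    rw [h2, h3]
    exact h1
  let φ := fun n => Classical.choice (hc n)
  let e : τ ≃ τ' := (Equiv.sigmaFiberEquiv g).symm.trans
    ((Equiv.sigmaCongrRight φ).trans (Equiv.sigmaFiberEquiv g'))
  refine ⟨e, fun x => ?_⟩
  exact (φ (g x) ⟨x, rfl⟩).2

section emb

variable {m : ℕ} {σ τ : Type} [Fintype σ] [Fintype τ]

/-- The change of columns. -/
noncomputable def rc (m : ℕ) {σ τ : Type} (ι : τ → σ) :
    MvPolynomial (Fin m × τ) ℂ →ₐ[ℂ] MvPolynomial (Fin m × σ) ℂ :=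
  rename (fun p : Fin m × τ => (p.1, ι p.2))

omit [Fintype σ] [Fintype τ] in
lemma inj_pr {ι : τ → σ} (hι : Function.Injective ι) :
    Function.Injective (fun p : Fin m × τ => (p.1, ι p.2)) := by
  rintro ⟨a, b⟩ ⟨c, d⟩ h
  have h1 : a = c := congrArg Prod.fst h
  have h2 : ι b = ι d := congrArg Prod.snd h
  rw [h1, hι h2]

omit [Fintype σ] [Fintype τ] in
lemma rc_inj {ι : τ → σ} (hι : Function.Injective ι) : Function.Injective (rc m ι) :=
  rename_injective _ (inj_pr hι)

omit [Fintype σ] [Fintype τ] in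
/-- Monomials under a change of columns. -/
lemma coeff_rc {ι : τ → σ} (hι : Function.Injective ι) {f : MvPolynomial (Fin m × τ) ℂ}
    {v : Fin m × σ →₀ ℕ} (hv : coeff v (rc m ι f) ≠ 0) :
    ∃ u : Fin m × τ →₀ ℕ, coeff u f ≠ 0 ∧ (∀ i j, v (i, ι j) = u (i, j)) ∧
      ∀ i j, j ∉ Set.range ι → v (i, j) = 0 := by
  obtain ⟨u, rfl, hu⟩ := coeff_rename_ne_zero _ _ _ hv
  refine ⟨u, hu, fun i j => ?_, fun i j hj => ?_⟩
  · exact Finsupp.mapDomain_apply (inj_pr hι) u (i, j)
  · apply Finsupp.mapDomain_of_notMem_range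
    rintro ⟨⟨a, b⟩, hab⟩
    exact hj ⟨b, congrArg Prod.snd hab⟩

lemma sum_row {ι : τ → σ} (hι : Function.Injective ι) {v : Fin m × σ →₀ ℕ}
    {u : Fin m × τ →₀ ℕ} (h1 : ∀ i j, v (i, ι j) = u (i, j))
    (h2 : ∀ i j, j ∉ Set.range ι → v (i, j) = 0) (i : Fin m) :
    ∑ j, v (i, j) = ∑ j, u (i, j) := by
  classical
  have h3 : ∑ j, u (i, j) = ∑ j ∈ Finset.univ.map ⟨ι, hι⟩, v (i, j) := by
    rw [Finset.sum_map]
    exact Finset.sum_congr rfl fun j _ => (h1 i j).symm
  rw [h3]
  symm
  apply Finset.sum_subset (Finset.subset_univ _)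
  intro j _ hj
  apply h2
  rintro ⟨b, rfl⟩
  exact hj (Finset.mem_map.2 ⟨b, Finset.mem_univ _, rfl⟩)

/-- The row operators commute with a change of columns. -/
lemma rowOp_rc {ι : τ → σ} (hι : Function.Injective ι) (s i : Fin m)
    (f : MvPolynomial (Fin m × τ) ℂ) : rowOp s i (rc m ι f) = rc m ι (rowOp s i f) := by
  classical
  rw [rowOp_apply, rowOp_apply, map_sum]
  have h3 : ∑ j, rc m ι (X (s, j) * pderiv (i, j) f)
      = ∑ j ∈ Finset.univ.map ⟨ι, hι⟩, X (s, j) * pderiv (i, j) (rc m ι f) := by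
    rw [Finset.sum_map]
    apply Finset.sum_congr rfl
    intro j _
    rw [map_mul]
    have h4 : pderiv (i, ι j) (rc m ι f) = rc m ι (pderiv (i, j) f) :=
      pderiv_rename (inj_pr hι) (i, j) f
    have h5 : rc m ι (X (s, j)) = X (s, ι j) := rename_X _ _
    change _ = X (s, ι j) * pderiv (i, ι j) (rc m ι f)
    rw [h4, h5]
  rw [h3]
  symm
  apply Finset.sum_subset (Finset.subset_univ _)
  intro j _ hj
  have h6 : pderiv (i, j) (rc m ι f) = 0 := by
    apply pderiv_eq_zero_of_notMem_vars
    intro h7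
    have h8 := vars_rename (fun p : Fin m × τ => (p.1, ι p.2)) f h7
    rw [Finset.mem_image] at h8
    obtain ⟨⟨a, b⟩, _, hab⟩ := h8
    apply hj
    exact Finset.mem_map.2 ⟨b, Finset.mem_univ _, congrArg Prod.snd hab⟩
  rw [h6, mul_zero]

/-- Highest weight polynomials under a change of columns. -/
lemma rc_mem_HW {ι : τ → σ} (hι : Function.Injective ι) {mu : Fin m → ℕ}
    {f : MvPolynomial (Fin m × τ) ℂ} : rc m ι f ∈ HW m σ mu ↔ f ∈ HW m τ mu := by
  rw [mem_HW, mem_HW]
  constructor
  · rintro ⟨h1, h2⟩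
    constructor
    · intro u hu i
      have hc : coeff (Finsupp.mapDomain (fun p : Fin m × τ => (p.1, ι p.2)) u) (rc m ι f)
          = coeff u f := coeff_rename_mapDomain _ (inj_pr hι) f u
      have h3 := h1 _ (by rw [hc]; exact hu) i
      rw [← h3]
      symm
      apply sum_row hι
      · intro i j
        exact Finsupp.mapDomain_apply (inj_pr hι) u (i, j)
      · intro i j hj
        apply Finsupp.mapDomain_of_notMem_range
        rintro ⟨⟨a, b⟩, hab⟩
        exact hj ⟨b, congrArg Prod.snd hab⟩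
    · intro s i hsi
      have h3 := h2 s i hsi
      rw [rowOp_rc hι] at h3
      exact (map_eq_zero_iff _ (rc_inj hι)).1 h3
  · rintro ⟨h1, h2⟩
    constructor
    · intro v hv i
      obtain ⟨u, hu, h3, h4⟩ := coeff_rc hι hv
      rw [sum_row hι h3 h4 i]
      exact h1 u hu i
    · intro s i hsi
      rw [rowOp_rc hι, h2 s i hsi, map_zero]

omit [Fintype σ] [Fintype τ] in
/-- A permutation of the big column set which preserves the range of `ι`. -/
lemma perm_restrict {ι : τ → σ} (hι : Function.Injective ι) (e : Equiv.Perm σ)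
    (he : ∀ x, e x ∈ Set.range ι ↔ x ∈ Set.range ι) :
    ∃ e' : Equiv.Perm τ, ∀ j, ι (e' j) = e (ι j) := by
  let φ := Equiv.ofInjective ι hι
  let s : Equiv.Perm (Set.range ι) := e.subtypePerm (p := fun x => x ∈ Set.range ι) he
  refine ⟨(φ.trans s).trans φ.symm, fun j => ?_⟩
  have h1 : ι (φ.symm (s (φ j))) = ((φ (φ.symm (s (φ j))) : Set.range ι) : σ) := rfl
  rw [Equiv.trans_apply, Equiv.trans_apply, h1, Equiv.apply_symm_apply]
  rfl

/-- **Transport.** `ι` is a bijection onto the set of columns of positive degree. -/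
lemma rc_mem_PK {ι : τ → σ} (hι : Function.Injective ι) {d : σ → ℕ}
    (hd : ∀ j, 0 < d j ↔ j ∈ Set.range ι) {mu : Fin m → ℕ}
    {f : MvPolynomial (Fin m × τ) ℂ} :
    rc m ι f ∈ PK m σ d mu ↔ f ∈ PK m τ (fun j => d (ι j)) mu := by
  rw [mem_PK, mem_PK, rc_mem_HW hι]
  constructor
  · rintro ⟨h0, h1, h2⟩
    refine ⟨h0, ?_, ?_⟩
    · intro u hu j
      have hc : coeff (Finsupp.mapDomain (fun p : Fin m × τ => (p.1, ι p.2)) u) (rc m ι f)
          = coeff u f := coeff_rename_mapDomain _ (inj_pr hι) f u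
      have h3 := h1 _ (by rw [hc]; exact hu) (ι j)
      rw [← h3]
      apply Finset.sum_congr rfl
      intro i _
      exact (Finsupp.mapDomain_apply (inj_pr hι) u (i, j)).symm
    · intro e' he'
      let ie : τ ↪ σ := ⟨ι, hι⟩
      have h3 := h2 (e'.viaEmbedding ie) (by
        intro j
        by_cases hj : j ∈ Set.range ι
        · obtain ⟨b, rfl⟩ := hj
          have h4 : e'.viaEmbedding ie (ι b) = ι (e' b) := e'.viaEmbedding_apply ie b
          rw [h4]
          exact he' b
        · rw [e'.viaEmbedding_apply_of_notMem ie j hj])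
      apply rc_inj (m := m) hι
      have h5 : rc m ι (rename (fun p : Fin m × τ => (p.1, e' p.2)) f)
          = rename (fun p : Fin m × σ => (p.1, (e'.viaEmbedding ie) p.2)) (rc m ι f) := by
        rw [rc, rename_rename, rename_rename]
        congr 2
        funext p
        have h4 : e'.viaEmbedding ie (ι p.2) = ι (e' p.2) := e'.viaEmbedding_apply ie p.2
        simp only [Function.comp_apply, h4]
      rw [h5, h3]
  · rintro ⟨h0, h1, h2⟩
    refine ⟨h0, ?_, ?_⟩
    · intro v hv j
      obtain ⟨u, hu, h3, h4⟩ := coeff_rc hι hv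
      by_cases hj : j ∈ Set.range ι
      · obtain ⟨b, rfl⟩ := hj
        rw [← h1 u hu b]
        exact Finset.sum_congr rfl fun i _ => h3 i b
      · have h5 : d j = 0 := by
          have := (hd j).not.2 hj
          omega
        rw [h5]
        exact Finset.sum_eq_zero fun i _ => h4 i j hj
    · intro e he
      obtain ⟨e', he'⟩ := perm_restrict hι e (by
        intro x
        rw [← hd, ← hd, he])
      have h5 : rename (fun p : Fin m × σ => (p.1, e p.2)) (rc m ι f)
          = rc m ι (rename (fun p : Fin m × τ => (p.1, e' p.2)) f) := by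
        rw [rc, rename_rename, rename_rename]
        congr 2
        funext p
        simp only [Function.comp_apply, he']
      rw [h5, h2 e' (fun j => by rw [he', he])]

omit [Fintype σ] [Fintype τ] in
/-- Polynomials in `PK` only involve the columns of positive degree. -/
lemma exists_rc {ι : τ → σ} (hι : Function.Injective ι) {d : σ → ℕ}
    (hd : ∀ j, 0 < d j → j ∈ Set.range ι)
    {g : MvPolynomial (Fin m × σ) ℂ} (hg : ∀ v, coeff v g ≠ 0 → ∀ j, ∑ i, v (i, j) = d j) :
    ∃ f : MvPolynomial (Fin m × τ) ℂ, rc m ι f = g := by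
  apply exists_rename_eq_of_vars_subset_range g _ (inj_pr hι)
  rintro ⟨i, j⟩ hij
  rw [Finset.mem_coe, mem_vars_iff_mem_support] at hij
  obtain ⟨v, hv, hij⟩ := hij
  have h1 := hg v (mem_support_iff.1 hv) j
  have h2 : v (i, j) ≤ ∑ i, v (i, j) :=
    Finset.single_le_sum (f := fun i => v (i, j)) (fun _ _ => Nat.zero_le _) (Finset.mem_univ i)
  have h3 : v (i, j) ≠ 0 := Finsupp.mem_support_iff.1 hij
  obtain ⟨b, hb⟩ := hd j (by omega)
  exact ⟨(i, b), by simp only [hb]⟩

/-- **Transport of dimensions.** -/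
theorem finrank_emb {ι : τ → σ} (hι : Function.Injective ι) {d : σ → ℕ}
    (hd : ∀ j, 0 < d j ↔ j ∈ Set.range ι) (mu : Fin m → ℕ) :
    Module.finrank ℂ (PK m σ d mu) = Module.finrank ℂ (PK m τ (fun j => d (ι j)) mu) := by
  have h1 : PK m σ d mu = (PK m τ (fun j => d (ι j)) mu).map (rc m ι).toLinearMap := by
    apply le_antisymm
    · intro g hg
      obtain ⟨f, rfl⟩ := exists_rc hι (fun j hj => (hd j).1 hj) (mem_PK.1 hg).2.1
      exact ⟨f, (rc_mem_PK hι hd).1 hg, rfl⟩
    · rintro _ ⟨f, hf, rfl⟩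
      exact (rc_mem_PK hι hd).2 hf
  rw [h1]
  exact (Submodule.equivMapOfInjective (rc m ι).toLinearMap (rc_inj hι) _).finrank_eq.symm

end emb

/-- **(R6)** Transport. -/
theorem transS : TransS := by
  intro m σ _ d mu
  classical
  set k : Multiset ℕ := (Finset.univ.val.map d).filter (0 < ·) with hk
  have h1 : (Finset.univ.val.map fun j : {x : σ // 0 < d x} => d j.1) = k := by
    have h2 : (Finset.univ.filter fun x : σ => 0 < d x).val.map d = k := by
      rw [hk, Multiset.filter_map, Finset.filter_val]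
      rfl
    rw [← h2]
    have h3 : (Finset.univ.val.map fun j : {x : σ // 0 < d x} => (j : σ))
        = (Finset.univ.filter fun x : σ => 0 < d x).val := by
      have h4 := Finset.subtype_map (s := (Finset.univ : Finset σ)) (fun x : σ => 0 < d x)
      have h5 := congrArg Finset.val h4
      rw [Finset.map_val] at h5
      rw [← h5]
      congr 1
      ext x
      simp
    rw [← h3, Multiset.map_map]
    rfl
  have h4 : (Finset.univ.val.map fun j : Fin k.toList.length => k.toList.get j) = k := by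
    rw [Fin.univ_val_map]
    rw [List.ofFn_get, Multiset.coe_toList]
  obtain ⟨e, he⟩ := exists_equiv (fun j : Fin k.toList.length => k.toList.get j)
    (fun j : {x : σ // 0 < d x} => d j.1) (h4.trans h1.symm)
  have h5 := finrank_emb (m := m) (ι := fun j => ((e j : {x : σ // 0 < d x}) : σ))
    (fun a b hab => e.injective (Subtype.ext hab)) (d := d) (fun j => by
      constructor
      · intro hj
        exact ⟨e.symm ⟨j, hj⟩, by simp⟩
      · rintro ⟨b, rfl⟩
        exact (e b).2) mu
  rw [h5, nn]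
  have h6 : (fun j => d ((e j : {x : σ // 0 < d x}) : σ)) = fun j => k.toList.get j := by
    funext j
    exact he j
  rw [h6]

/-- The degrees of a family of columns without empty columns. -/
theorem transPos {m : ℕ} {σ : Type} [Fintype σ] (d : σ → ℕ) (mu : Fin m → ℕ)
    (hd : ∀ j, 0 < d j) :
    Module.finrank ℂ (PK m σ d mu) = nn m mu (Finset.univ.val.map d) := by
  rw [transS m σ d mu, Multiset.filter_eq_self.2]
  intro x hx
  obtain ⟨j, _, rfl⟩ := Multiset.mem_map.1 hx
  exact hd j

end Vale.Agent.P181.SZT0
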